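import Vale.Agent.P325.H111.K2.Stmts

/-!
# Completeness: the assignment of the true labels
-/

namespace Vale.Agent.P325.K2.H160C

open Finset Vale.Agent.Lib.PCP Vale.Agent.P342 Vale.Agent.P325.K2

variable {n N r L : ℕ}

/-- The true label tuple of the window `c`. -/
def tru (α β : ℕ → Fin r) (c : Win n N) (q : Win n N → Ed r) : Lab n N r := fun b =>
  if Dj b c then β (q b).2.1 else α (q b).1

theorem not_dj_self [NeZero n] (c : Win n N) : ¬ Dj c c := fun h => h 0 rfl

theorem tru_qst [NeZero n] (α β : ℕ → Fin r) (c : Win n N) (e : Win n N → Ed r) :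
    tru α β c (qst c e) = tru α β c e := by
  funext b
  unfold tru qst
  by_cases h1 : b = c
  · subst h1
    simp [not_dj_self]
  · by_cases h2 : Dj b c <;> simp [h1, h2]

theorem Ssum_congr {K : Type} (a : Fin n → Fin L) (y : Bt n L K → Bool) (κ κ' : Fin n → K)
    (h : ∀ k, (a k : ℕ) ≠ 0 → κ k = κ' k) : Ssum a y κ = Ssum a y κ' := by
  unfold Ssum
  refine sum_congr rfl fun k _ => ?_
  by_cases hk : (a k : ℕ) = 0
  · rw [hk, Nat.cast_zero, zero_mul, zero_mul]
  · rw [h k hk]

theorem tbit_congr [NeZero n] [NeZero L] {K : Type} (a : Fin n → Fin L) (y : Bt n L K → Bool)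
    (κ κ' : Fin n → K) (ha : ∃ k, (a k : ℕ) ≠ 0) (h : ∀ k, (a k : ℕ) ≠ 0 → κ k = κ' k) :
    tbit a y κ = tbit a y κ' := by
  have h1 := Ssum_congr a y κ κ' h
  have h2 : (a (slot0 a) : ℕ) ≠ 0 := by
    unfold slot0
    rw [dif_pos ha]
    exact ha.choose_spec
  unfold tbit
  rw [h1, h _ h2]

/-- The probability that the sum at a given address is small. -/
theorem near_marg {K : Type} [Fintype K] [DecidableEq K] (a : Fin n → Fin L) (κ : Fin n → K) :
    (Pr fun y : Bt n L K → Bool => near a y κ) =
      Pr fun y : Fin n × Unit × Fin (L * L) → Bool => near a y fun _ => () := by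
  classical
  have hι : Function.Injective (fun j : Fin n × Unit × Fin (L * L) => (j.1, κ j.1, j.2.2)) := by
    rintro ⟨k, u, i⟩ ⟨k', u', i'⟩ h
    simp only [Prod.mk.injEq] at h
    obtain ⟨rfl, -, rfl⟩ := h
    rfl
  exact Ex_comp_inj (fun j : Fin n × Unit × Fin (L * L) => (j.1, κ j.1, j.2.2)) hι
    (fun y => if near a y (fun _ => ()) then (1 : ℝ) else 0)

/-- The cost of the first test of a dictator. -/
theorem cost1_dict [NeZero n] [NeZero L] {K V : Type} [Fintype K] [DecidableEq K] [Fintype V]
    [DecidableEq V] (adr : V → Fin n → K) (a : Fin n → Fin L) (ν0 : V) :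
    cost1 (fun φ : V → Bool => φ ν0) adr a =
      Pr fun y : Fin n × Unit × Fin (L * L) → Bool => near a y fun _ => () := by
  unfold cost1
  rw [sum_eq_single ν0]
  · rw [← near_marg a (adr ν0)]
    refine Pr_congr fun y => ⟨fun h => h.1, fun h => ⟨h, ?_⟩⟩
    unfold pivt flipAt
    simp
  · intro ν _ hν
    have h0 : (Pr fun y : Bt n L K → Bool => near a y (adr ν) ∧
        pivt (fun φ : V → Bool => φ ν0) adr a y ν) = Pr fun _ : Bt n L K → Bool => False := by
      refine Pr_congr fun y => ⟨fun h => ?_, fun h => h.elim⟩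
      have h2 := h.2
      unfold pivt flipAt at h2
      exact h2 (Function.update_of_ne (Ne.symm hν) _ _)
    rw [h0]
    simp [Pr, Ex]
  · intro h
    exact absurd (mem_univ _) h

theorem adr_tru [NeZero n] (α β : ℕ → Fin r) (c : Win n N) (e : Win n N → Ed r)
    (he : ∀ b, (e b).2.2 (α (e b).1) = β (e b).2.1) (k : Fin n) :
    adr (prj e) c (tru α β c e) k =
      (c k, fun b => if b k = c k then α (e b).1 else β (e b).2.1) := by
  unfold adr tru prj
  refine Prod.ext rfl ?_
  funext b
  by_cases h1 : b k = c k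
  · have h2 : ¬ Dj b c := fun h => h k h1
    simp [h1, h2]
  · by_cases h2 : Dj b c
    · simp [h1, h2]
    · simp [h1, h2, he b]

theorem complete : CompleteThm := by
  intro n N r L W _ _ _ _ G hG hperf
  obtain ⟨α, β, hsat⟩ := hperf
  have hcon : ∀ c ∈ G, c.2.2 (α c.1) = β c.2.1 := by
    intro c hc
    have h := (List.countP_eq_length.1 hsat) c hc
    simpa using h
  refine ⟨fun c q φ => φ (tru α β c q), fun c q φ => rfl, ?_⟩
  have hc1 : ∀ (e : Win n N → Ed r) (c : Win n N) (a : Fin n → Fin L),
      c1 (fun c q φ => φ (tru α β c q)) e c a =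
        Pr fun y : Fin n × Unit × Fin (L * L) → Bool => near a y fun _ => () := by
    intro e c a
    exact cost1_dict _ _ _
  have hc3 : ∀ (p : Win n N → Fin G.length) (c : Win n N) (a : Fin n → Fin L) (k : Fin n)
      (j : Fin N), c3 (fun c q φ => φ (tru α β c q)) (eo G p) c a k j = 0 := by
    intro p c a k j
    have he : ∀ b, (eo G p b).2.2 (α (eo G p b).1) = β (eo G p b).2.1 := fun b =>
      hcon _ (List.get_mem _ _)
    unfold c3
    split_ifs with h
    · obtain ⟨hk, ha⟩ := h
      have ha' : ∃ k, (a k : ℕ) ≠ 0 := by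
        by_contra hcon
        push Not at hcon
        exact ha (funext fun k => Fin.ext (by rw [hcon k]; simp))
      have hF : ∀ y : Sd n N r L, Fz (fun c q φ => φ (tru α β c q)) (eo G p) c a y =
          Fz (fun c q φ => φ (tru α β c q)) (eo G p) (Function.update c k j) a y := by
        intro y
        unfold Fz FF tbl
        refine congrArg sg ?_
        change tbit a y (adr (prj (eo G p)) c (tru α β c (qst c (eo G p)))) =
          tbit a y (adr (prj (eo G p)) (Function.update c k j)
            (tru α β (Function.update c k j) (qst (Function.update c k j) (eo G p))))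
        rw [tru_qst, tru_qst]
        refine tbit_congr a y _ _ ha' fun k' hk' => ?_
        have hne : k' ≠ k := by
          rintro rfl
          exact hk' (by rw [hk]; simp)
        rw [adr_tru α β c _ he, adr_tru α β _ _ he, Function.update_of_ne hne]
      have h0 : (Pr fun y : Sd n N r L => Fz (fun c q φ => φ (tru α β c q)) (eo G p) c a y ≠
          Fz (fun c q φ => φ (tru α β c q)) (eo G p) (Function.update c k j) a y) =
          Pr fun _ : Sd n N r L => False :=
        Pr_congr fun y => ⟨fun h => h (hF y), fun h => h.elim⟩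
      rw [h0]
      simp [Pr, Ex]
    · rfl
  have : Nonempty (Fin G.length) := ⟨⟨0, List.length_pos_of_ne_nil hG⟩⟩
  unfold cost nu
  rw [Pr_prod]
  have h1 : (Ex fun z : (Win n N → Fin G.length) × Win n N × (Fin n → Fin L) =>
      c1 (fun c q φ => φ (tru α β c q)) (eo G z.1) z.2.1 z.2.2 +
        W * ∑ k, ∑ j, c3 (fun c q φ => φ (tru α β c q)) (eo G z.1) z.2.1 z.2.2 k j) =
      Ex fun z : (Win n N → Fin G.length) × Win n N × (Fin n → Fin L) =>
        Pr fun y : Fin n × Unit × Fin (L * L) → Bool => near z.2.2 y fun _ => () := by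
    refine Ex_congr fun z => ?_
    rw [hc1]
    simp [hc3]
  rw [h1, Ex_prod]
  have h2 : ∀ x : Win n N → Fin G.length, (Ex fun y : Win n N × (Fin n → Fin L) =>
      Pr fun y' : Fin n × Unit × Fin (L * L) → Bool => near y.2 y' fun _ => ()) =
      Ex fun a : Fin n → Fin L =>
        Pr fun y' : Fin n × Unit × Fin (L * L) → Bool => near a y' fun _ => () := by
    intro x
    rw [Ex_prod]
    exact Ex_const (α := Win n N) (Ex fun a : Fin n → Fin L =>
      Pr fun y' : Fin n × Unit × Fin (L * L) → Bool => near a y' fun _ => ())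
  rw [Ex_congr h2]
  exact Ex_const (α := Win n N → Fin G.length) _

end Vale.Agent.P325.K2.H160C
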